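import Vale.Agent.H66.CT.PeelRed
import Vale.Agent.H44.CT.LineShift

/-!
P328: the edge-average certificate of the hook-peel inequality (structural part).

Setting of `Vale/Agent/H66/CT/PeelRed.lean`: a class `Box n s (ρ + 1)`, an ordered pair of
distinct columns `a, b` with caps at least one, the peeled class `Box n (peelCap s a b) ρ`.
A point `y` of the peeled class is an edge of a line of the pair `a, b`: its two ends are
`peelEmb y` (entry at `a` raised by one) and `peelEmbR y` (entry at `b` raised by one).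

* `edgeAvg f y` is the mean of `f` over the two ends of the edge `y`, `edgeMean f` the mean of
  `edgeAvg f` over the peeled class.
* `edgeLift f` is the candidate `g` of `PeelAt`: at a point of positive level, the image of the
  edge `y`, it is `edgeAvg f y - edgeMean f`; at a point `z` of level `0` it is the mean of `f`
  over the first and the last point of the line of `z` plus `edgeMean f` times the depth of
  the line.
* `edgeLift_avg`: `edgeLift f` has the line averages of `f` for the pair `a, b`.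
* `edgeLift_level_zero`: if `f` has zero sum, `edgeLift f` has zero sum on the level `0`.
* `peelFun_edgeLift`: the restriction of `edgeLift f` to the peeled class is
  `edgeAvg f - edgeMean f`.
* `edgeAvg_line`: for every pair of columns `x, y`, the edge average of a function that is
  constant on the lines of `x, y` is constant on the lines of `x, y` of the peeled class.
* `peelAt_of_edge`: the peeling inequality `PeelAt` follows from the single inequality between
  the slacks of `f` and of `edgeAvg f - edgeMean f`.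
* `edgeAvg_sum`, `edgeAvg_dot`, `edgeAvg_sq`: the sum of the edge average and the parallelogram
  identity (sum of squares of `u` minus sum of squares of `edgeAvg u` = half the squares on the
  first points + half the squares on the last points + a quarter of the squared differences
  along the edges).
-/

namespace Vale.Agent.H55.CT

open Finset Vale.Agent.H90 Vale.Agent.H88.CT Vale.Agent.H91.CT Vale.Agent.H14.CT
  Vale.Agent.H2.CT Vale.Agent.H66.CT Vale.Agent.H44.CT

variable {n : ℕ}

theorem e1_peelCap_comm (s : Fin n → ℕ) (a b : Fin n) : peelCap s b a = peelCap s a b := by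
  funext k
  unfold peelCap
  by_cases h : k = a ∨ k = b
  · rw [if_pos h, if_pos (Or.symm h)]
  · rw [if_neg h, if_neg (fun h' => h (Or.symm h'))]

/-- A point of the peeled class of `a, b` as a point of the peeled class of `b, a`. -/
def capSwap (s : Fin n → ℕ) (ρ : ℕ) (a b : Fin n) (z : Box n (peelCap s a b) ρ) :
    Box n (peelCap s b a) ρ :=
  ⟨z.1, fun k => le_of_le_of_eq (z.2.1 k) (congrFun (e1_peelCap_comm s a b) k).symm, z.2.2⟩

theorem capSwap_bij (s : Fin n → ℕ) (ρ : ℕ) (a b : Fin n) :
    Function.Bijective (capSwap s ρ a b) := by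
  constructor
  · intro z w h
    apply Subtype.ext
    have h' : (capSwap s ρ a b z).1 = (capSwap s ρ a b w).1 := congrArg Subtype.val h
    exact h'
  · intro w
    refine ⟨capSwap s ρ b a w, ?_⟩
    apply Subtype.ext
    rfl

/-- The second end of the edge `z`: the entry at `b` is raised by one. -/
def peelEmbR (s : Fin n → ℕ) (ρ : ℕ) (a b : Fin n) (hb : 1 ≤ s b)
    (z : Box n (peelCap s a b) ρ) : Box n s (ρ + 1) :=
  peelEmb s ρ b a hb (capSwap s ρ a b z)

theorem peelEmbR_val (s : Fin n → ℕ) (ρ : ℕ) (a b : Fin n) (hb : 1 ≤ s b)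
    (z : Box n (peelCap s a b) ρ) (k : Fin n) :
    (peelEmbR s ρ a b hb z).1 k = z.1 k + (if k = b then 1 else 0) := rfl

/-- A sum over the class splits into the sum over the last points of the lines and the sum
over the second ends of the edges. -/
theorem sum_peelR (s : Fin n → ℕ) (ρ : ℕ) (a b : Fin n) (hab : a ≠ b) (ha : 1 ≤ s a)
    (hb : 1 ≤ s b) (φ : Box n s (ρ + 1) → ℝ) :
    ∑ z, φ z = ∑ z ∈ univ.filter (fun z : Box n s (ρ + 1) => levelB b a z = 0), φ z
      + ∑ w : Box n (peelCap s a b) ρ, φ (peelEmbR s ρ a b hb w) := by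
  rw [sum_peel s ρ b a hab.symm hb ha φ]
  congr 1
  exact ((capSwap_bij s ρ a b).sum_comp (fun w => φ (peelEmb s ρ b a hb w))).symm

/-- The two ends of an edge are on the same line of the pair `a, b`. -/
theorem lineRel_ends (s : Fin n → ℕ) (ρ : ℕ) (a b : Fin n) (ha : 1 ≤ s a) (hb : 1 ≤ s b)
    (v : Box n (peelCap s a b) ρ) :
    LineRel a b (peelEmb s ρ a b ha v) (peelEmbR s ρ a b hb v) := by
  intro k hka hkb
  rw [peelEmb_val, peelEmbR_val, if_neg hka, if_neg hkb]

/-- The embeddings of the peeled class respect the lines of every pair of columns. -/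
theorem lineRel_peelEmb_any (s : Fin n → ℕ) (ρ : ℕ) (a b : Fin n) (ha : 1 ≤ s a)
    (x y : Fin n) (v w : Box n (peelCap s a b) ρ) (h : LineRel x y v w) :
    LineRel x y (peelEmb s ρ a b ha v) (peelEmb s ρ a b ha w) := by
  intro k hkx hky
  rw [peelEmb_val, peelEmb_val, h k hkx hky]

theorem lineRel_peelEmbR_any (s : Fin n → ℕ) (ρ : ℕ) (a b : Fin n) (hb : 1 ≤ s b)
    (x y : Fin n) (v w : Box n (peelCap s a b) ρ) (h : LineRel x y v w) :
    LineRel x y (peelEmbR s ρ a b hb v) (peelEmbR s ρ a b hb w) := by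
  intro k hkx hky
  rw [peelEmbR_val, peelEmbR_val, h k hkx hky]

/-- The edge average: the mean of `f` over the two ends of an edge. -/
noncomputable def edgeAvg (a b : Fin n) {s : Fin n → ℕ} {ρ : ℕ} (ha : 1 ≤ s a) (hb : 1 ≤ s b)
    (f : Box n s (ρ + 1) → ℝ) : Box n (peelCap s a b) ρ → ℝ :=
  fun y => (f (peelEmb s ρ a b ha y) + f (peelEmbR s ρ a b hb y)) / 2

/-- The mean of the edge average over the peeled class. -/
noncomputable def edgeMean (a b : Fin n) {s : Fin n → ℕ} {ρ : ℕ} (ha : 1 ≤ s a) (hb : 1 ≤ s b)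
    (f : Box n s (ρ + 1) → ℝ) : ℝ :=
  (∑ y, edgeAvg a b ha hb f y) / (Fintype.card (Box n (peelCap s a b) ρ) : ℝ)

/-- The edge average of a function constant on the lines of the pair `x, y` is constant on the
lines of the pair `x, y` of the peeled class. -/
theorem edgeAvg_line (a b : Fin n) {s : Fin n → ℕ} {ρ : ℕ} (ha : 1 ≤ s a) (hb : 1 ≤ s b)
    (x y : Fin n) (h : Box n s (ρ + 1) → ℝ)
    (hh : ∀ z w : Box n s (ρ + 1), LineRel x y z w → h z = h w)
    (v w : Box n (peelCap s a b) ρ) (hvw : LineRel x y v w) :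
    edgeAvg a b ha hb h v = edgeAvg a b ha hb h w := by
  unfold edgeAvg
  rw [hh _ _ (lineRel_peelEmb_any s ρ a b ha x y v w hvw),
    hh _ _ (lineRel_peelEmbR_any s ρ a b hb x y v w hvw)]

/-- The candidate of the peeling inequality. -/
noncomputable def edgeLift (a b : Fin n) (hab : a ≠ b) {s : Fin n → ℕ} {ρ : ℕ} (ha : 1 ≤ s a)
    (hb : 1 ≤ s b) (f : Box n s (ρ + 1) → ℝ) : Box n s (ρ + 1) → ℝ :=
  fun z =>
    if levelB a b z = 0 then
      (f z + f (r4_down b a hab.symm z)) / 2 + edgeMean a b ha hb f * (depthB a b z : ℝ)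
    else
      ∑ v : Box n (peelCap s a b) ρ,
        if peelEmb s ρ a b ha v = z then edgeAvg a b ha hb f v - edgeMean a b ha hb f else 0

theorem edgeLift_zero (a b : Fin n) (hab : a ≠ b) {s : Fin n → ℕ} {ρ : ℕ} (ha : 1 ≤ s a)
    (hb : 1 ≤ s b) (f : Box n s (ρ + 1) → ℝ) (z : Box n s (ρ + 1)) (hz : levelB a b z = 0) :
    edgeLift a b hab ha hb f z
      = (f z + f (r4_down b a hab.symm z)) / 2 + edgeMean a b ha hb f * (depthB a b z : ℝ) := by
  unfold edgeLift
  rw [if_pos hz]

theorem edgeLift_emb (a b : Fin n) (hab : a ≠ b) {s : Fin n → ℕ} {ρ : ℕ} (ha : 1 ≤ s a)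
    (hb : 1 ≤ s b) (f : Box n s (ρ + 1) → ℝ) (v : Box n (peelCap s a b) ρ) :
    edgeLift a b hab ha hb f (peelEmb s ρ a b ha v)
      = edgeAvg a b ha hb f v - edgeMean a b ha hb f := by
  have hl : ¬ levelB a b (peelEmb s ρ a b ha v) = 0 := by
    rw [levelB_peelEmb s ρ a b hab ha hb v]
    omega
  unfold edgeLift
  rw [if_neg hl]
  have e : ∀ u : Box n (peelCap s a b) ρ,
      (if peelEmb s ρ a b ha u = peelEmb s ρ a b ha v
        then edgeAvg a b ha hb f u - edgeMean a b ha hb f else 0)
        = if u = v then edgeAvg a b ha hb f u - edgeMean a b ha hb f else 0 := by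
    intro u
    by_cases huv : u = v
    · rw [if_pos huv, if_pos (by rw [huv])]
    · rw [if_neg huv, if_neg (fun h => huv (peelEmb_inj s ρ a b ha h))]
  rw [Finset.sum_congr rfl (fun u _ => e u),
    Finset.sum_ite_eq' univ v (fun u => edgeAvg a b ha hb f u - edgeMean a b ha hb f)]
  simp

/-- The restriction of the candidate to the peeled class is the centred edge average. -/
theorem peelFun_edgeLift (a b : Fin n) (hab : a ≠ b) {s : Fin n → ℕ} {ρ : ℕ} (ha : 1 ≤ s a)
    (hb : 1 ≤ s b) (f : Box n s (ρ + 1) → ℝ) :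
    peelFun a b (edgeLift a b hab ha hb f)
      = fun v => edgeAvg a b ha hb f v - edgeMean a b ha hb f := by
  funext v
  rw [peelFun_eq a b ha, edgeLift_emb]

/-- On the level `0` a sum over a line has one term, at the first point of the line. -/
theorem e1_sum_first {s : Fin n → ℕ} {ρ : ℕ} (a b : Fin n) (hab : a ≠ b) (z0 : Box n s ρ)
    (F : Box n s ρ → ℝ) :
    ∑ w ∈ univ.filter (fun w : Box n s ρ => levelB a b w = 0),
        (if LineRel a b z0 w then F w else 0)
      = F (r4_down a b hab z0) := by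
  have hR := lineRel_equiv (s := s) (ρ := ρ) a b
  rw [Finset.sum_eq_single (r4_down a b hab z0)]
  · rw [if_pos (r4_down_line a b hab z0)]
  · intro w hw hne
    have hw0 := (Finset.mem_filter.1 hw).2
    rw [if_neg]
    intro hl
    apply hne
    refine (eq_of_line_level a b hab _ w (hR.trans (hR.symm (r4_down_line a b hab z0)) hl) ?_).symm
    rw [r4_down_level, hw0]
  · intro h
    exact absurd (Finset.mem_filter.2 ⟨Finset.mem_univ (r4_down a b hab z0),
      r4_down_level a b hab z0⟩) h

/-- The same for the last points of the lines (the first points in the other order). -/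
theorem e1_sum_last {s : Fin n → ℕ} {ρ : ℕ} (a b : Fin n) (hab : a ≠ b) (z0 : Box n s ρ)
    (F : Box n s ρ → ℝ) :
    ∑ w ∈ univ.filter (fun w : Box n s ρ => levelB b a w = 0),
        (if LineRel a b z0 w then F w else 0)
      = F (r4_down b a hab.symm z0) := by
  rw [← e1_sum_first b a hab.symm z0 F]
  refine Finset.sum_congr rfl (fun w _ => ?_)
  by_cases hw : LineRel a b z0 w
  · rw [if_pos hw, if_pos ((lineRel_comm2 a b z0 w).1 hw)]
  · rw [if_neg hw, if_neg (fun h' => hw ((lineRel_comm2 a b z0 w).2 h'))]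

/-- The last point of a line depends only on the line. -/
theorem e1_last_const {s : Fin n → ℕ} {ρ : ℕ} (a b : Fin n) (hab : a ≠ b) (z w : Box n s ρ)
    (h : LineRel a b z w) : r4_down b a hab.symm z = r4_down b a hab.symm w := by
  have hR := lineRel_equiv (s := s) (ρ := ρ) b a
  have h' : LineRel b a z w := (lineRel_comm2 a b z w).1 h
  refine eq_of_line_level b a hab.symm _ _
    (hR.trans (hR.symm (r4_down_line b a hab.symm z)) (hR.trans h' (r4_down_line b a hab.symm w))) ?_
  rw [r4_down_level, r4_down_level]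

/-- The number of edges of a line is its depth. -/
theorem e1_count_edges (s : Fin n → ℕ) (ρ : ℕ) (a b : Fin n) (hab : a ≠ b) (ha : 1 ≤ s a)
    (hb : 1 ≤ s b) (z0 : Box n s (ρ + 1)) :
    ∑ v : Box n (peelCap s a b) ρ,
        (if LineRel a b z0 (peelEmb s ρ a b ha v) then (1 : ℝ) else 0)
      = (depthB a b z0 : ℝ) := by
  have h1 := sum_peel s ρ a b hab ha hb (fun w => if LineRel a b z0 w then (1 : ℝ) else 0)
  rw [e1_sum_first a b hab z0 (fun _ => (1 : ℝ))] at h1
  have h2 : ∑ w : Box n s (ρ + 1), (if LineRel a b z0 w then (1 : ℝ) else 0)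
      = (depthB a b z0 : ℝ) + 1 := by
    rw [← box_class_card a b hab z0, ← Finset.sum_filter]
    simp
  linarith

/-- The candidate has the line sums of `f`. -/
theorem e1_line_sum (a b : Fin n) (hab : a ≠ b) {s : Fin n → ℕ} {ρ : ℕ} (ha : 1 ≤ s a)
    (hb : 1 ≤ s b) (f : Box n s (ρ + 1) → ℝ) (z0 : Box n s (ρ + 1)) :
    ∑ w : Box n s (ρ + 1), (if LineRel a b z0 w then edgeLift a b hab ha hb f w else 0)
      = ∑ w : Box n s (ρ + 1), (if LineRel a b z0 w then f w else 0) := by
  have hR := lineRel_equiv (s := s) (ρ := ρ + 1) a b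
  -- the two decompositions of the line sum of `f`
  have hf1 := sum_peel s ρ a b hab ha hb (fun w => if LineRel a b z0 w then f w else 0)
  rw [e1_sum_first a b hab z0 f] at hf1
  have hf2 := sum_peelR s ρ a b hab ha hb (fun w => if LineRel a b z0 w then f w else 0)
  rw [e1_sum_last a b hab z0 f] at hf2
  -- the decomposition of the line sum of the candidate
  have hg := sum_peel s ρ a b hab ha hb
    (fun w => if LineRel a b z0 w then edgeLift a b hab ha hb f w else 0)
  rw [e1_sum_first a b hab z0 (edgeLift a b hab ha hb f)] at hg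
  have hfirst : edgeLift a b hab ha hb f (r4_down a b hab z0)
      = (f (r4_down a b hab z0) + f (r4_down b a hab.symm z0)) / 2
        + edgeMean a b ha hb f * (depthB a b z0 : ℝ) := by
    rw [edgeLift_zero a b hab ha hb f _ (r4_down_level a b hab z0),
      ← e1_last_const a b hab z0 _ (r4_down_line a b hab z0),
      ← depthB_const a b hab z0 _ (r4_down_line a b hab z0)]
  have hiff : ∀ v : Box n (peelCap s a b) ρ,
      LineRel a b z0 (peelEmbR s ρ a b hb v) ↔ LineRel a b z0 (peelEmb s ρ a b ha v) := by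
    intro v
    have he := lineRel_ends s ρ a b ha hb v
    exact ⟨fun h => hR.trans h (hR.symm he), fun h => hR.trans h he⟩
  have hedges : ∑ v : Box n (peelCap s a b) ρ,
      (if LineRel a b z0 (peelEmb s ρ a b ha v)
        then edgeLift a b hab ha hb f (peelEmb s ρ a b ha v) else 0)
      = (∑ v : Box n (peelCap s a b) ρ,
          (if LineRel a b z0 (peelEmb s ρ a b ha v) then f (peelEmb s ρ a b ha v) else 0)
        + ∑ v : Box n (peelCap s a b) ρ,
          (if LineRel a b z0 (peelEmbR s ρ a b hb v) then f (peelEmbR s ρ a b hb v) else 0)) / 2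
        - edgeMean a b ha hb f * (depthB a b z0 : ℝ) := by
    rw [← e1_count_edges s ρ a b hab ha hb z0, Finset.mul_sum, ← Finset.sum_add_distrib,
      Finset.sum_div, ← Finset.sum_sub_distrib]
    refine Finset.sum_congr rfl (fun v _ => ?_)
    by_cases hv : LineRel a b z0 (peelEmb s ρ a b ha v)
    · rw [if_pos hv, if_pos hv, if_pos ((hiff v).2 hv), if_pos hv, edgeLift_emb]
      unfold edgeAvg
      ring
    · rw [if_neg hv, if_neg hv, if_neg (fun h => hv ((hiff v).1 h)), if_neg hv]
      ring
  rw [hg, hfirst, hedges]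
  linarith

/-- The candidate has the line averages of `f` for the pair `a, b`. -/
theorem edgeLift_avg (a b : Fin n) (hab : a ≠ b) {s : Fin n → ℕ} {ρ : ℕ} (ha : 1 ≤ s a)
    (hb : 1 ≤ s b) (f : Box n s (ρ + 1) → ℝ) :
    avgRel (LineRel a b) (edgeLift a b hab ha hb f) = avgRel (LineRel a b) f := by
  funext z0
  unfold avgRel
  rw [Finset.sum_filter, Finset.sum_filter, e1_line_sum a b hab ha hb f z0]

/-- The sum of the candidate over the peeled class vanishes. -/
theorem e1_sum_emb (a b : Fin n) (hab : a ≠ b) {s : Fin n → ℕ} {ρ : ℕ} (ha : 1 ≤ s a)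
    (hb : 1 ≤ s b) (f : Box n s (ρ + 1) → ℝ) :
    ∑ v : Box n (peelCap s a b) ρ, edgeLift a b hab ha hb f (peelEmb s ρ a b ha v) = 0 := by
  rw [Finset.sum_congr rfl (fun v _ => edgeLift_emb a b hab ha hb f v),
    Finset.sum_sub_distrib, Finset.sum_const, Finset.card_univ, nsmul_eq_mul]
  unfold edgeMean
  by_cases hc : (Fintype.card (Box n (peelCap s a b) ρ) : ℝ) = 0
  · have hc' : Fintype.card (Box n (peelCap s a b) ρ) = 0 := by exact_mod_cast hc
    have hemp : (univ : Finset (Box n (peelCap s a b) ρ)) = ∅ := by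
      rw [← Finset.card_eq_zero, Finset.card_univ]
      exact hc'
    rw [hc, hemp]
    simp
  · rw [mul_div_cancel₀ _ hc, sub_self]

/-- If `f` has zero sum, the candidate has zero sum on the level `0`. -/
theorem edgeLift_level_zero (a b : Fin n) (hab : a ≠ b) {s : Fin n → ℕ} {ρ : ℕ} (ha : 1 ≤ s a)
    (hb : 1 ≤ s b) (f : Box n s (ρ + 1) → ℝ) (hf : ∑ z, f z = 0) :
    ∑ z ∈ univ.filter (fun z : Box n s (ρ + 1) => levelB a b z = 0),
      edgeLift a b hab ha hb f z = 0 := by
  have hR := lineRel_equiv (s := s) (ρ := ρ + 1) a b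
  have hsum : ∑ z, edgeLift a b hab ha hb f z = 0 := by
    rw [← TransferAux.sum_avgRel (LineRel a b) hR (edgeLift a b hab ha hb f),
      edgeLift_avg a b hab ha hb f, TransferAux.sum_avgRel (LineRel a b) hR f, hf]
  have h := sum_peel s ρ a b hab ha hb (edgeLift a b hab ha hb f)
  rw [hsum, e1_sum_emb a b hab ha hb f, add_zero] at h
  exact h.symm

/-- The peeling inequality for `f` follows from the inequality between the slacks of `f` and of
its centred edge average. -/
theorem peelAt_of_edge (a b : Fin n) (hab : a ≠ b) {s : Fin n → ℕ} {ρ : ℕ} (ha : 1 ≤ s a)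
    (hb : 1 ≤ s b) (f : Box n s (ρ + 1) → ℝ) (hf : ∑ z, f z = 0)
    (h : 2 * ∑ z ∈ univ.filter (fun z : Box n s (ρ + 1) => levelB a b z = 0),
          ((f z + f (r4_down b a hab.symm z)) / 2
            + edgeMean a b ha hb f * (depthB a b z : ℝ)) ^ 2
        + slackOff a b (fun v => edgeAvg a b ha hb f v - edgeMean a b ha hb f)
        ≤ slackOff a b f) :
    PeelAt s ρ a b f := by
  refine ⟨edgeLift a b hab ha hb f, edgeLift_avg a b hab ha hb f,
    edgeLift_level_zero a b hab ha hb f hf, ?_⟩
  rw [peelFun_edgeLift a b hab ha hb f]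
  have e : ∑ z ∈ univ.filter (fun z : Box n s (ρ + 1) => levelB a b z = 0),
      edgeLift a b hab ha hb f z ^ 2
      = ∑ z ∈ univ.filter (fun z : Box n s (ρ + 1) => levelB a b z = 0),
        ((f z + f (r4_down b a hab.symm z)) / 2
          + edgeMean a b ha hb f * (depthB a b z : ℝ)) ^ 2 := by
    refine Finset.sum_congr rfl (fun z hz => ?_)
    rw [edgeLift_zero a b hab ha hb f z (Finset.mem_filter.1 hz).2]
  rw [e]
  exact h

/-- The sum of the edge average: the sum of `u` minus half the sums of `u` over the first and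
over the last points of the lines. -/
theorem edgeAvg_sum (a b : Fin n) (hab : a ≠ b) {s : Fin n → ℕ} {ρ : ℕ} (ha : 1 ≤ s a)
    (hb : 1 ≤ s b) (u : Box n s (ρ + 1) → ℝ) :
    ∑ y, edgeAvg a b ha hb u y
      = ∑ z, u z
        - (1 / 2) * ∑ z ∈ univ.filter (fun z : Box n s (ρ + 1) => levelB a b z = 0), u z
        - (1 / 2) * ∑ z ∈ univ.filter (fun z : Box n s (ρ + 1) => levelB b a z = 0), u z := by
  have h1 := sum_peel s ρ a b hab ha hb u
  have h2 := sum_peelR s ρ a b hab ha hb u
  unfold edgeAvg
  rw [← Finset.sum_div, Finset.sum_add_distrib]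
  linarith

/-- The parallelogram identity of the edge average, in bilinear form. -/
theorem edgeAvg_dot (a b : Fin n) (hab : a ≠ b) {s : Fin n → ℕ} {ρ : ℕ} (ha : 1 ≤ s a)
    (hb : 1 ≤ s b) (u v : Box n s (ρ + 1) → ℝ) :
    ∑ z, u z * v z - ∑ y, edgeAvg a b ha hb u y * edgeAvg a b ha hb v y
      = (1 / 2) * ∑ z ∈ univ.filter (fun z : Box n s (ρ + 1) => levelB a b z = 0), u z * v z
        + (1 / 2) * ∑ z ∈ univ.filter (fun z : Box n s (ρ + 1) => levelB b a z = 0), u z * v z
        + (1 / 4) * ∑ y : Box n (peelCap s a b) ρ,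
            (u (peelEmb s ρ a b ha y) - u (peelEmbR s ρ a b hb y))
              * (v (peelEmb s ρ a b ha y) - v (peelEmbR s ρ a b hb y)) := by
  have h1 := sum_peel s ρ a b hab ha hb (fun z => u z * v z)
  have h2 := sum_peelR s ρ a b hab ha hb (fun z => u z * v z)
  have h3 : ∑ y, edgeAvg a b ha hb u y * edgeAvg a b ha hb v y
      = (1 / 2) * ∑ y : Box n (peelCap s a b) ρ,
            u (peelEmb s ρ a b ha y) * v (peelEmb s ρ a b ha y)
        + (1 / 2) * ∑ y : Box n (peelCap s a b) ρ,
            u (peelEmbR s ρ a b hb y) * v (peelEmbR s ρ a b hb y)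
        - (1 / 4) * ∑ y : Box n (peelCap s a b) ρ,
            (u (peelEmb s ρ a b ha y) - u (peelEmbR s ρ a b hb y))
              * (v (peelEmb s ρ a b ha y) - v (peelEmbR s ρ a b hb y)) := by
    rw [Finset.mul_sum, Finset.mul_sum, Finset.mul_sum, ← Finset.sum_add_distrib,
      ← Finset.sum_sub_distrib]
    refine Finset.sum_congr rfl (fun y _ => ?_)
    unfold edgeAvg
    ring
  rw [h3]
  linarith

/-- The parallelogram identity of the edge average: the sum of the squares of `u` minus the sum
of the squares of its edge average is half the sum of the squares over the first points plus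
half the sum of the squares over the last points plus a quarter of the sum of the squared
differences along the edges. -/
theorem edgeAvg_sq (a b : Fin n) (hab : a ≠ b) {s : Fin n → ℕ} {ρ : ℕ} (ha : 1 ≤ s a)
    (hb : 1 ≤ s b) (u : Box n s (ρ + 1) → ℝ) :
    ∑ z, u z ^ 2 - ∑ y, edgeAvg a b ha hb u y ^ 2
      = (1 / 2) * ∑ z ∈ univ.filter (fun z : Box n s (ρ + 1) => levelB a b z = 0), u z ^ 2
        + (1 / 2) * ∑ z ∈ univ.filter (fun z : Box n s (ρ + 1) => levelB b a z = 0), u z ^ 2
        + (1 / 4) * ∑ y : Box n (peelCap s a b) ρ,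
            (u (peelEmb s ρ a b ha y) - u (peelEmbR s ρ a b hb y)) ^ 2 := by
  have h := edgeAvg_dot a b hab ha hb u u
  simp only [← pow_two] at h
  exact h

/-- The edge average is linear. -/
theorem edgeAvg_sub (a b : Fin n) {s : Fin n → ℕ} {ρ : ℕ} (ha : 1 ≤ s a) (hb : 1 ≤ s b)
    (u v : Box n s (ρ + 1) → ℝ) (y : Box n (peelCap s a b) ρ) :
    edgeAvg a b ha hb (fun z => u z - v z) y = edgeAvg a b ha hb u y - edgeAvg a b ha hb v y := by
  unfold edgeAvg
  ring

theorem edgeAvg_add (a b : Fin n) {s : Fin n → ℕ} {ρ : ℕ} (ha : 1 ≤ s a) (hb : 1 ≤ s b)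
    (u v : Box n s (ρ + 1) → ℝ) (y : Box n (peelCap s a b) ρ) :
    edgeAvg a b ha hb (fun z => u z + v z) y = edgeAvg a b ha hb u y + edgeAvg a b ha hb v y := by
  unfold edgeAvg
  ring

theorem edgeAvg_smul (a b : Fin n) {s : Fin n → ℕ} {ρ : ℕ} (ha : 1 ≤ s a) (hb : 1 ≤ s b)
    (c : ℝ) (u : Box n s (ρ + 1) → ℝ) (y : Box n (peelCap s a b) ρ) :
    edgeAvg a b ha hb (fun z => c * u z) y = c * edgeAvg a b ha hb u y := by
  unfold edgeAvg
  ring

theorem edgeAvg_const (a b : Fin n) {s : Fin n → ℕ} {ρ : ℕ} (ha : 1 ≤ s a) (hb : 1 ≤ s b)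
    (c : ℝ) (y : Box n (peelCap s a b) ρ) :
    edgeAvg a b ha hb (fun _ : Box n s (ρ + 1) => c) y = c := by
  unfold edgeAvg
  ring

/-- The centred edge average has zero sum. -/
theorem edgeAvg_centred_sum (a b : Fin n) (hab : a ≠ b) {s : Fin n → ℕ} {ρ : ℕ} (ha : 1 ≤ s a)
    (hb : 1 ≤ s b) (f : Box n s (ρ + 1) → ℝ) :
    ∑ v : Box n (peelCap s a b) ρ, (edgeAvg a b ha hb f v - edgeMean a b ha hb f) = 0 := by
  rw [← e1_sum_emb a b hab ha hb f]
  exact Finset.sum_congr rfl (fun v _ => (edgeLift_emb a b hab ha hb f v).symm)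

end Vale.Agent.H55.CT
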